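import Vale.Agent.P098.Stmt

/-! Internal definitions for P098. FROZEN. See skeleton/P098/GUIDE.md. -/

open MeasureTheory Set Filter Topology Metric
open scoped ContDiff RealInnerProductSpace

noncomputable section

namespace Vale.Agent.P098

variable {d : ℕ}

/-- coordinate vectors -/
def ee (i : Fin d) : V d := EuclideanSpace.single i 1

/-- coordinate derivatives -/
def D (i : Fin d) (f : V d → ℝ) (x : V d) : ℝ := fderiv ℝ f x (ee i)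

/-- product of gradients -/
def dot (f g : V d → ℝ) (x : V d) : ℝ := ∑ i, D i f x * D i g x

/-- Laplacian -/
def lap (f : V d → ℝ) (x : V d) : ℝ := ∑ i, D i (D i f) x

/-- the Hessian of `f` on the gradients of `a` and `b` -/
def hes (f a b : V d → ℝ) (x : V d) : ℝ := ∑ i, ∑ j, D i (D j f) x * D i a x * D j b x

/-- squared norm of the Hessian -/
def hsq (f : V d → ℝ) (x : V d) : ℝ := ∑ i, ∑ j, D i (D j f) x ^ 2

/-- Euler operator -/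
def rad (f : V d → ℝ) (x : V d) : ℝ := ∑ i, x i * D i f x

/-- radial functions -/
def rz (z : ℝ → ℝ) (x : V d) : ℝ := z (‖x‖ ^ 2)

/-- the positive phase -/
def Om (U : V d → ℝ) : Set (V d) := {x | x ≠ 0 ∧ 0 < U x}

/-- its part in an annulus -/
def An (U : V d → ℝ) (a b : ℝ) : Set (V d) := {x | 0 < U x ∧ a ≤ ‖x‖ ∧ ‖x‖ ≤ b}

/-- the boundary layer -/
def Ly (U : V d → ℝ) (a b ε : ℝ) : Set (V d) := {x | x ∈ An U a b ∧ U x ≤ ε}

/-- open cones without the origin -/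
structure Cn (S : Set (V d)) : Prop where
  op : IsOpen S
  ne : ∀ x ∈ S, x ≠ 0
  smul : ∀ t : ℝ, 0 < t → ∀ x ∈ S, t • x ∈ S

/-- homogeneous of degree `k` on `S` -/
def Hom (S : Set (V d)) (k : ℤ) (f : V d → ℝ) : Prop :=
  ∀ t : ℝ, 0 < t → ∀ x ∈ S, f (t • x) = t ^ k * f x

/-- vanishing on `S` outside a compact subset -/
def Cs (S : Set (V d)) (F : V d → ℝ) : Prop :=
  ∃ K, IsCompact K ∧ K ⊆ S ∧ ∀ x ∈ S, x ∉ K → F x = 0

/-- classical homogeneous solutions -/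
structure Cone (U : V d → ℝ) : Prop where
  sm : ContDiffOn ℝ ∞ U {0}ᶜ
  hom : ∀ t : ℝ, 0 < t → ∀ x, x ≠ 0 → max (U (t • x)) 0 = t * max (U x) 0
  har : ∀ x ∈ Om U, lap U x = 0
  fb : ∀ x, x ≠ 0 → U x = 0 → dot U U x = 1

/-- minimality from inside -/
def Stab (U : V d → ℝ) : Prop :=
  ∀ m, Tst (Om U) m → (∀ x ∈ Om U, m x ≤ U x) →
    volume.real {x | x ∈ Om U ∧ m x = U x} ≤ ∫ x in Om U, dot m m x

/-- radial cut-offs -/
structure Rc (z : ℝ → ℝ) (a b : ℝ) : Prop where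
  sm : ContDiff ℝ ∞ z
  pos : 0 < a
  le : a ≤ b
  supp : ∀ s, z s ≠ 0 → a ^ 2 ≤ s ∧ s ≤ b ^ 2

/-- the basic cut-off: zero up to one, one from two on -/
def bt (s : ℝ) : ℝ := Real.smoothTransition (s - 1)

/-- two-scale cut-offs -/
structure Chi (χ : ℝ → ℝ) (ε δ C : ℝ) : Prop where
  sm : ContDiff ℝ ∞ χ
  zero : ∀ s, s ≤ δ → χ s = 0
  one : ∀ s, 2 * ε ≤ s → χ s = 1
  nn : ∀ s, 0 ≤ χ s
  le : ∀ s, χ s ≤ 1
  d1 : ∀ s, |deriv χ s| ≤ C / ε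
  d1z : ∀ s, 2 * ε < s → deriv χ s = 0
  d2 : ∀ s, 0 < s → s * deriv (deriv χ) s ≤ C / ε
  d2z : ∀ s, 2 * δ < s → deriv (deriv χ) s ≤ 0
  d2y : ∀ s, 2 * ε < s → deriv (deriv χ) s = 0

/-- functions that separate two parts of the zero phase -/
structure Cut (U θ : V d → ℝ) : Prop where
  sm : ContDiffOn ℝ ∞ θ {0}ᶜ
  hom : Hom {0}ᶜ 0 θ
  loc : ∃ η : ℝ, 0 < η ∧ ∀ x, x ≠ 0 → U x < η * ‖x‖ →
    (θ =ᶠ[𝓝 x] fun _ => 0) ∨ (θ =ᶠ[𝓝 x] fun _ => 1)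
  ex0 : ∃ x ∈ Zp U, θ x = 0
  ex1 : ∃ x ∈ Zp U, θ x = 1

/-- homogeneous harmonic functions -/
structure Hr (U h : V d → ℝ) : Prop where
  sm : ContDiffOn ℝ ∞ h (Om U)
  har : ∀ x ∈ Om U, lap h x = 0
  hom : Hom (Om U) 0 h

/-- the gradient of `h` near the free boundary -/
structure Gd (U h g : V d → ℝ) : Prop where
  sm : ContDiffOn ℝ ∞ g (Om U)
  bd : ∃ C : ℝ, ∀ x ∈ Om U, |g x| ≤ C / ‖x‖
  eq : ∃ η : ℝ, 0 < η ∧ ∀ x ∈ Om U, U x < η * ‖x‖ →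
    ∀ i, D i h x = g x * D i U x + U x * D i g x
  int : ∀ a b : ℝ, 0 < a → IntegrableOn (fun x => U x * dot g g x) (An U a b)

/-- functions that are small in the boundary layer -/
def Sml (U g R : V d → ℝ) (a b : ℝ) : Prop :=
  ∀ l : ℝ, 0 < l → ∃ η C : ℝ, 0 < η ∧ ∀ x ∈ Ly U a b η, |R x| ≤ l + C * (U x ^ 2 * dot g g x)

/-- admissible variations -/
structure Adm (U φ : V d → ℝ) (a b : ℝ) : Prop where
  pos : 0 < a
  sm : ContDiffOn ℝ ∞ φ (Om U)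
  nn : ∀ x ∈ Om U, 0 ≤ φ x
  supp : ∀ x ∈ Om U, φ x ≠ 0 → a ≤ ‖x‖ ∧ ‖x‖ ≤ b
  i0 : IntegrableOn (fun x => φ x ^ 2) (Om U)
  i1 : IntegrableOn (dot φ φ) (Om U)

/-- the defect in the Kato inequality -/
def kd (h : V d → ℝ) (x : V d) : ℝ :=
  hsq h x - dot (dot h h) (dot h h) x / (4 * dot h h x) - dot h h x / ‖x‖ ^ 2

end Vale.Agent.P098
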